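import Vale.Agent.P254.Loc.All
import Vale.Agent.P254.Loc.Compare
import Vale.Agent.P254.Skew.Main

/-!
# An explicit bound on the isotropic constant in every dimension
-/

theorem Vale.Agent.Results.P254.ExplicitSlicingBound.result :
    ∀ (n : ℕ), 1 ≤ n → ∀ K : Set (Fin n → ℝ), IsCompact K → Convex ℝ K → (interior K).Nonempty →
      Vale.P254.isoConst K ≤ Real.sqrt (Real.exp 1 / (2 * Real.pi)) ∧
      ∀ p : Fin (n + 1) → Fin n → ℝ, AffineIndependent ℝ p →
        Vale.P254.isoConst K ≤ Real.sqrt (6 * Real.exp 1 / Real.pi)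
          * Vale.P254.isoConst (convexHull ℝ (Set.range p)) :=
  fun _ hn _ hc hK hi =>
    ⟨Vale.P254.Loc.isoConst_le_of_skew Vale.P254.Skew.skew hn hc hK hi, fun p hp =>
      Vale.P254.Loc.le_mul_simplex hn
        (Vale.P254.Loc.isoConst_le_of_skew Vale.P254.Skew.skew hn hc hK hi) p hp⟩
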