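import Vale.Agent.P254L.Local

namespace Vale.Agent.Results.P254.SimplexLocalMax

open Vale.Agent.P254L

/-- In every dimension, every simplex is a strict local maximiser of the isotropic constant
among convex bodies, with local equality exactly for simplices. -/
theorem result : ∀ n : ℕ, 1 ≤ n → ∀ S : Set (Fin n → ℝ), IsNSimplex S →
    ∃ ε : ℝ, 0 < ε ∧ ∀ K : Set (Fin n → ℝ), Convex ℝ K → IsCompact K → (interior K).Nonempty →
      Metric.hausdorffDist K S < ε →
      isotropicConstant K ≤ isotropicConstant S ∧
        (isotropicConstant K = isotropicConstant S ↔ IsNSimplex K) := by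
  intro n hn
  obtain ⟨d, rfl⟩ := Nat.exists_eq_add_of_le hn
  rw [Nat.add_comm]
  intro S hS
  exact sl_simplex_local_max hS

end Vale.Agent.Results.P254.SimplexLocalMax
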