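import Mathlib
import Vale.Agent.P254.Three.Main

/-! The strong isotropic constant conjecture for centrally symmetric bodies in dimension three. -/

namespace Vale.Agent.Results.P254.SymmetricThree

open Vale.P254

theorem result :
    ∀ K : Set (Fin 3 → ℝ), IsCompact K → Convex ℝ K → (interior K).Nonempty →
      ∀ c : Fin 3 → ℝ, (∀ x ∈ K, (2 : ℝ) • c - x ∈ K) →
      ∀ p : Fin 4 → Fin 3 → ℝ, AffineIndependent ℝ p →
        isoConst K < isoConst (convexHull ℝ (Set.range p)) :=
  fun _ hKc hKv hint c hsym p hp => Three.symmetric_lt_simplex hKc hKv hint c hsym p hp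

end Vale.Agent.Results.P254.SymmetricThree
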