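import Mathlib
import Vale.Agent.P254.E.Nodes.Cover
import Vale.Agent.P254.Min.Unc

/-! The strong isotropic constant conjecture for affine images of unconditional convex bodies in
every dimension at least three. -/

namespace Vale.Agent.Results.P254.UnconditionalSimplex

open Vale.P254

theorem result :
    ∀ n : ℕ, 3 ≤ n → ∀ K : Set (Fin n → ℝ), IsCompact K → Convex ℝ K →
      (∀ i, ∀ x ∈ K, Function.update x i (-x i) ∈ K) → (interior K).Nonempty →
      ∀ (A : (Fin n → ℝ) ≃ᵃ[ℝ] (Fin n → ℝ)) (p : Fin (n + 1) → Fin n → ℝ),
        AffineIndependent ℝ p →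
        isoConst (A '' K) < isoConst (convexHull ℝ (Set.range p)) := by
  intro n hn
  rcases hn.eq_or_lt with rfl | h
  · exact fun _ hKc hKv hflip hint A p hp => U.unconditional_three hKc hKv hflip hint A p hp
  · exact E.uncLt_ge_four h

end Vale.Agent.Results.P254.UnconditionalSimplex
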